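import Vale.Agent.P365.T2.H704.Bind
import Vale.Agent.P365.V4.B701.ShareBind

/-!
# P365-T2, K-BIND: `ShareWeg` (fields `share` and `weg` of the homogeneous worlds)
-/

set_option linter.all false

namespace P365T2.H701

open P365T2.H213 P365T2.H704 P365V4.B701

/-- **(k4'), (k5)** of the homogeneous worlds -/
theorem shareWeg : ShareWeg := by
  intro lam E yf Vsf hlam hE hK
  obtain ⟨R, hR, -, hK⟩ := hK 0
  refine ⟨R, hR, fun rs hrs => ?_⟩
  have hrs' : 2 ≤ rs := hR.trans hrs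
  have hpi := Real.pi_pos
  refine ⟨71 * Real.pi / lam, by positivity, fun η hη => ?_⟩
  obtain ⟨i₀, h0⟩ := world_share lam hrs' hη
  refine ⟨i₀, fun i hi I hI N _ b hfl => ?_⟩
  obtain ⟨hA, hK⟩ := hK rs hrs I
  obtain ⟨hD, -⟩ := hK N b (fun _ _ => b) b hfl
  exact ⟨fun τ _ => h0 i hi I hI E yf Vsf N b hA hfl hD τ,
    fun τ hτ => world_weg hrs' hA hfl hD hI hτ.2⟩

end P365T2.H701
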